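import Crest.Agent.PT.Arith

/-!
From constraint satisfaction over a fixed finite alphabet to bounded-width CNF, in the
polynomial-time framework.
-/

set_option autoImplicit false

namespace Crest.Agent.CL

open Crest.Agent.PT

/-- The conclusion of the Cook–Levin theorem: a polynomial-time description of a CNF formula of
constant width that is satisfiable exactly for members of `A`. -/
def CNFStmt (A : Set (List Bool)) : Prop :=
  ∃ (k : ℕ) (n m : Raw → ℕ) (var : Raw → ℕ → ℕ → ℕ) (sgn : Raw → ℕ → ℕ → Bool), 0 < k ∧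
    PT n ∧ PT m ∧ PT (fun p : Raw × ℕ × ℕ => var p.1 p.2.1 p.2.2) ∧
    PT (fun p : Raw × ℕ × ℕ => sgn p.1 p.2.1 p.2.2) ∧ (∀ x j s, var x j s < n x) ∧
    ∀ x : List Bool, x ∈ A ↔
      ∃ σ : ℕ → Bool, ∀ j < m ⟨x⟩, ∃ s < k, σ (var ⟨x⟩ j s) = sgn ⟨x⟩ j s

section tables

variable {α β : Type} [Enc α] [Enc β]

/-- Constant tables. -/
theorem pt_table (g : ℕ → β) (B : ℕ) {f : α → ℕ} (hf : PT f) (hB : ∀ a, f a < B) :
    PT (fun a => g (f a)) := by
  have key : ∀ C : ℕ, PT (fun a => if f a < C then g (f a) else g 0) := by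
    intro C
    induction C with
    | zero => exact (PT.const (g 0)).congr (fun a => by simp)
    | succ C ih =>
      refine (PT.ite_eq hf (PT.const C) (PT.const (g C)) ih).congr (fun a => ?_)
      by_cases h : f a = C
      · simp [h]
      · by_cases h2 : f a < C
        · simp [h, h2, show f a < C + 1 by omega]
        · simp [h, h2, show ¬ f a < C + 1 by omega]
  exact (key B).congr (fun a => by simp [hB a])

/-- Constant tables with two arguments. -/
theorem pt_table2 (g : ℕ → ℕ → β) (B C : ℕ) {f h : α → ℕ} (hf : PT f) (hh : PT h)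
    (hB : ∀ a, f a < B) (hC : ∀ a, h a < C) : PT (fun a => g (f a) (h a)) := by
  refine (pt_table (fun n => g (n / C) (n % C)) (B * C) (f := fun a => f a * C + h a)
    (by fun_prop) (fun a => ?_)).congr (fun a => ?_)
  · have h1 := hB a
    have h2 := hC a
    have : (f a + 1) * C ≤ B * C := Nat.mul_le_mul_right _ h1
    rw [Nat.succ_mul] at this
    omega
  · have h2 := hC a
    have hC0 : 0 < C := by omega
    rw [Nat.add_comm, Nat.add_mul_div_right _ _ hC0, Nat.add_mul_mod_self_right,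
      Nat.div_eq_of_lt h2, Nat.mod_eq_of_lt h2, Nat.zero_add]

/-- Evaluation of a fixed polynomial. -/
theorem pt_poly (p : Polynomial ℕ) {f : α → ℕ} (hf : PT f) : PT (fun a => p.eval (f a)) := by
  induction p using Polynomial.induction_on' with
  | add p q hp hq => exact (hp.add hq).congr (fun a => by simp)
  | monomial n c => exact ((PT.const c).mul (hf.pow n)).congr (fun a => by simp)

/-- Access to a bit. -/
theorem pt_getD {f : α → Raw} {g : α → ℕ} (hf : PT f) (hg : PT g) :
    PT (fun a => (f a).val.getD (g a) false) := by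
  have key : ∀ (i : ℕ) (x : Raw), (Raw.tail^[i] x).val = x.val.drop i := by
    intro i
    induction i with
    | zero => intro x; rfl
    | succ i ih => intro x; rw [Function.iterate_succ_apply', Raw.val_tail, ih]; simp
  have h := PT.iter (f := Raw.tail) (PT.tail PT.id') hg hf hf.pb (fun a i _ => by
    simp only [sz_raw, key, List.length_drop]; omega)
  refine h.head.congr (fun a => ?_)
  simp only [Raw.head, key]
  rw [List.headD_eq_head?_getD, List.head?_drop, List.getD_eq_getElem?_getD]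

end tables

theorem exists_code (X : Type) [Finite X] [Nonempty X] :
    ∃ S : ℕ, 0 < S ∧ ∃ (c : X → ℕ) (d : ℕ → X), (∀ a, c a < S) ∧ (∀ a, d (c a) = a) ∧
      ∀ n < S, c (d n) = n := by
  classical
  let e := Finite.equivFin X
  refine ⟨Nat.card X, Nat.card_pos, fun a => e a,
    fun n => if h : n < Nat.card X then e.symm ⟨n, h⟩ else Classical.arbitrary X,
    fun a => (e a).2, fun a => ?_, fun n hn => ?_⟩
  · simp
  · simp [hn]

theorem div_mod_of_lt {S : ℕ} (q a : ℕ) (h : a < S) :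
    (q * S + a) / S = q ∧ (q * S + a) % S = a := by
  have hS : 0 < S := by omega
  rw [Nat.add_comm, Nat.add_mul_div_right _ _ hS, Nat.add_mul_mod_self_right,
    Nat.div_eq_of_lt h, Nat.mod_eq_of_lt h, Nat.zero_add]
  exact ⟨rfl, rfl⟩

theorem mul_add_lt {q a N S : ℕ} (hq : q < N) (ha : a < S) : q * S + a < N * S := by
  have : (q + 1) * S ≤ N * S := Nat.mul_le_mul_right _ hq
  rw [Nat.succ_mul] at this
  omega

theorem cnf_of_csp {Sg : Type} [Finite Sg] [Nonempty Sg] (A : Set (List Bool)) (L B : ℕ)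
    (N M : Raw → ℕ) (pos : Raw → ℕ → ℕ → ℕ) (ty : Raw → ℕ → ℕ) (R : ℕ → (ℕ → Sg) → Prop)
    (hN : PT N) (hM : PT M) (hpos : PT fun p : Raw × ℕ × ℕ => pos p.1 p.2.1 p.2.2)
    (hty : PT fun p : Raw × ℕ => ty p.1 p.2) (hB : ∀ x j, ty x j < B)
    (hL : ∀ x j i, L ≤ i → pos x j i = pos x j L) (hlt : ∀ x j i, j < M x → pos x j i < N x)
    (H : ∀ x, x ∈ A ↔ ∃ τ : ℕ → Sg, ∀ j < M ⟨x⟩, R (ty ⟨x⟩ j) (fun i => τ (pos ⟨x⟩ j i))) :
    CNFStmt A := by
  classical
  obtain ⟨S, hS, c, d, hc, hdc, hcd⟩ := exists_code Sg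
  obtain ⟨U, hU, cT, dT, hcT, hdcT, -⟩ := exists_code (Fin (L + 1) → Sg)
  let tup : ℕ → ℕ → Sg := fun u i => dT u ⟨min i L, by omega⟩
  let ok : ℕ → ℕ → Bool := fun t u => decide (R t (tup u))
  let okx : Raw → ℕ → Bool := fun x J => ok (ty x ((J - N x) / U)) ((J - N x) % U)
  let var : Raw → ℕ → ℕ → ℕ := fun x J s =>
    if J < N x then J * S + min s (S - 1) else
      bif okx x J then min s (S - 1) else
        min (pos x ((J - N x) / U) (min s L)) (N x) * S + c (tup ((J - N x) % U) (min s L))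
  let sgn : Raw → ℕ → ℕ → Bool := fun x J _ => if J < N x then true else okx x J
  have hNp : PT (fun p : Raw × ℕ × ℕ => N p.1) := hN.comp (by fun_prop)
  have hj : PT (fun p : Raw × ℕ × ℕ => (p.2.1 - N p.1) / U) := by fun_prop
  have hu : PT (fun p : Raw × ℕ × ℕ => (p.2.1 - N p.1) % U) := by fun_prop
  have hok : PT (fun p : Raw × ℕ × ℕ => okx p.1 p.2.1) :=
    pt_table2 ok B U (hty.comp (f := fun p : Raw × ℕ × ℕ => (p.1, (p.2.1 - N p.1) / U))
      (by fun_prop)) hu (fun _ => hB _ _) (fun _ => Nat.mod_lt _ hU)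
  have hsym : PT (fun p : Raw × ℕ × ℕ => c (tup ((p.2.1 - N p.1) % U) (min p.2.2 L))) :=
    pt_table2 (fun u s => c (tup u s)) U (L + 1) hu (by fun_prop) (fun _ => Nat.mod_lt _ hU)
      (fun _ => by omega)
  have hps : PT (fun p : Raw × ℕ × ℕ => pos p.1 ((p.2.1 - N p.1) / U) (min p.2.2 L)) :=
    hpos.comp (f := fun p : Raw × ℕ × ℕ => (p.1, (p.2.1 - N p.1) / U, min p.2.2 L))
      (by fun_prop)
  refine ⟨S + L + 1, fun x => (N x + 1) * S, fun x => N x + M x * U, var, sgn, by omega,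
    by fun_prop, by fun_prop, ?_, ?_, ?_, fun x => ?_⟩
  · refine PT.ite_lt (by fun_prop) hNp (by fun_prop) (PT.cond hok (by fun_prop) ?_)
    exact ((hps.min hNp).mul (PT.const S)).add hsym
  · exact PT.ite_lt (by fun_prop) hNp (PT.const true) hok
  · intro x J s
    simp only [var]
    split_ifs with h
    · exact mul_add_lt (by omega) (by omega)
    · cases okx x J
      · exact mul_add_lt (by omega) (hc _)
      · have := mul_add_lt (q := 0) (N := N x + 1) (a := min s (S - 1)) (S := S) (by omega)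
          (by omega)
        simpa using this
  rw [H]
  constructor
  · rintro ⟨τ, hτ⟩
    refine ⟨fun q => decide (c (τ (q / S)) = q % S), fun J hJ => ?_⟩
    by_cases h : J < N ⟨x⟩
    · refine ⟨c (τ J), by have := hc (τ J); omega, ?_⟩
      have h1 : min (c (τ J)) (S - 1) = c (τ J) := by have := hc (τ J); omega
      simp only [var, sgn, if_pos h, h1, div_mod_of_lt _ _ (hc (τ J)), decide_true]
    · cases hk : okx ⟨x⟩ J
      · have hjM : (J - N ⟨x⟩) / U < M ⟨x⟩ := by
          rw [Nat.div_lt_iff_lt_mul hU]; simp only at hJ; omega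
        have h2 := hτ _ hjM
        by_contra hne
        push Not at hne
        have h3 : (fun i => τ (pos ⟨x⟩ ((J - N ⟨x⟩) / U) i)) = tup ((J - N ⟨x⟩) % U) := by
          funext i
          have h4 := hne (min i L) (by omega)
          have h5 : min (min i L) L = min i L := by omega
          have h6 := hlt ⟨x⟩ _ (min i L) hjM
          simp only [var, sgn, if_neg h, hk, cond_false, h5, min_eq_left h6.le,
            div_mod_of_lt _ _ (hc _), ne_eq, decide_eq_false_iff_not, not_not] at h4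
          have h7 := congrArg d h4
          rw [hdc, hdc] at h7
          have h8 : pos ⟨x⟩ ((J - N ⟨x⟩) / U) i = pos ⟨x⟩ ((J - N ⟨x⟩) / U) (min i L) := by
            rcases le_total L i with h9 | h9
            · rw [min_eq_right h9, hL _ _ _ h9]
            · rw [min_eq_left h9]
          rw [h8, h7]
          simp only [tup, h5]
        rw [h3] at h2
        simp only [okx, ok, decide_eq_false_iff_not] at hk
        exact hk h2
      · refine ⟨c (τ 0), by have := hc (τ 0); omega, ?_⟩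
        have h1 : min (c (τ 0)) (S - 1) = c (τ 0) := by have := hc (τ 0); omega
        simp only [var, sgn, if_neg h, hk, cond_true, h1, Nat.div_eq_of_lt (hc _),
          Nat.mod_eq_of_lt (hc _), decide_true]
  · rintro ⟨σ, hσ⟩
    have h1 : ∀ q : ℕ, ∃ a : Sg, q < N ⟨x⟩ → σ (q * S + c a) = true := by
      intro q
      by_cases hq : q < N ⟨x⟩
      · obtain ⟨s, -, hs⟩ := hσ q (by simp only; omega)
        simp only [var, sgn, if_pos hq] at hs
        exact ⟨d (min s (S - 1)), fun _ => by rw [hcd _ (by omega)]; exact hs⟩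
      · exact ⟨Classical.arbitrary _, fun h => (hq h).elim⟩
    choose τ hτ using h1
    refine ⟨τ, fun j hj => ?_⟩
    let t : Fin (L + 1) → Sg := fun i => τ (pos ⟨x⟩ j i)
    have h2 : tup (cT t) = fun i => τ (pos ⟨x⟩ j i) := by
      funext i
      simp only [tup, hdcT, t]
      rcases le_total L i with h9 | h9
      · rw [min_eq_right h9, hL _ _ _ h9]
      · rw [min_eq_left h9]
    obtain ⟨s, -, hs⟩ := hσ (N ⟨x⟩ + (j * U + cT t))
      (Nat.add_lt_add_left (mul_add_lt hj (hcT t)) _)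
    have h3 : ¬ N ⟨x⟩ + (j * U + cT t) < N ⟨x⟩ := by omega
    by_contra hR
    have hk : okx ⟨x⟩ (N ⟨x⟩ + (j * U + cT t)) = false := by
      simp only [okx, ok, Nat.add_sub_cancel_left, div_mod_of_lt _ _ (hcT t), h2,
        decide_eq_false_iff_not]
      exact hR
    have h6 := hlt ⟨x⟩ _ (min s L) hj
    simp only [var, sgn, if_neg h3, hk, cond_false, Nat.add_sub_cancel_left,
      div_mod_of_lt _ _ (hcT t), h2, min_eq_left h6.le, hτ _ h6] at hs
    exact Bool.noConfusion hs

theorem cnf_of_csp' {Sg : Type} (G : Set Sg) (hG : G.Finite) (hG' : G.Nonempty)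
    (A : Set (List Bool)) (L B : ℕ)
    (N M : Raw → ℕ) (pos : Raw → ℕ → ℕ → ℕ) (ty : Raw → ℕ → ℕ) (R : ℕ → (ℕ → Sg) → Prop)
    (hN : PT N) (hM : PT M) (hpos : PT fun p : Raw × ℕ × ℕ => pos p.1 p.2.1 p.2.2)
    (hty : PT fun p : Raw × ℕ => ty p.1 p.2) (hB : ∀ x j, ty x j < B)
    (hL : ∀ x j i, L ≤ i → pos x j i = pos x j L) (hlt : ∀ x j i, j < M x → pos x j i < N x)
    (H1 : ∀ x, x ∈ A → ∃ τ : ℕ → Sg, (∀ q, τ q ∈ G) ∧
      ∀ j < M ⟨x⟩, R (ty ⟨x⟩ j) (fun i => τ (pos ⟨x⟩ j i)))
    (H2 : ∀ x (τ : ℕ → Sg), (∀ j < M ⟨x⟩, R (ty ⟨x⟩ j) (fun i => τ (pos ⟨x⟩ j i))) → x ∈ A) :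
    CNFStmt A := by
  have := hG.to_subtype
  have := hG'.to_subtype
  refine cnf_of_csp (Sg := G) A L B N M pos ty (fun t a => R t (fun i => (a i).1)) hN hM hpos hty
    hB hL hlt (fun x => ⟨fun hx => ?_, ?_⟩)
  · obtain ⟨τ, h1, h2⟩ := H1 x hx
    exact ⟨fun q => ⟨τ q, h1 q⟩, h2⟩
  · rintro ⟨τ, h⟩
    exact H2 x (fun q => (τ q).1) h

end Crest.Agent.CL
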