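import Mathlib

/-!
Locality of one step of a stack machine.
-/

set_option autoImplicit false

namespace Crest.Agent.CL

open Turing Turing.TM2 Function

variable {K : Type} {Γ : K → Type} {Λ σ : Type}

/-- Largest number of stack operations along a path of a statement. -/
def depth : Stmt Γ Λ σ → ℕ
  | .push _ _ q => depth q + 1
  | .peek _ _ q => depth q + 1
  | .pop _ _ q => depth q + 1
  | .load _ q => depth q
  | .branch _ q₁ q₂ => max (depth q₁) (depth q₂)
  | .goto _ => 0
  | .halt => 0

/-- The symbols a statement may push. -/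
def syms : Stmt Γ Λ σ → Set (Σ k, Γ k)
  | .push k f q => Set.range (fun v => ⟨k, f v⟩) ∪ syms q
  | .peek _ _ q => syms q
  | .pop _ _ q => syms q
  | .load _ q => syms q
  | .branch _ q₁ q₂ => syms q₁ ∪ syms q₂
  | .goto _ => ∅
  | .halt => ∅

theorem syms_finite [Finite σ] (q : Stmt Γ Λ σ) : (syms q).Finite := by
  induction q with
  | push k f q ih => exact (Set.finite_range _).union ih
  | peek k f q ih => exact ih
  | pop k f q ih => exact ih
  | load f q ih => exact ih
  | branch f q₁ q₂ ih₁ ih₂ => exact ih₁.union ih₂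
  | goto f => exact Set.finite_empty
  | halt => exact Set.finite_empty

variable [DecidableEq K]

theorem good_stepAux (G : Set (Σ k, Γ k)) (q : Stmt Γ Λ σ) (hq : syms q ⊆ G) (v : σ)
    (S : ∀ k, List (Γ k)) (hS : ∀ k, ∀ a ∈ S k, (⟨k, a⟩ : Σ k, Γ k) ∈ G) :
    ∀ k, ∀ a ∈ (stepAux q v S).stk k, (⟨k, a⟩ : Σ k, Γ k) ∈ G := by
  induction q generalizing v S with
  | push k f q ih =>
    refine ih (fun a ha => hq (Or.inr ha)) v _ (fun j a ha => ?_)
    by_cases h : j = k
    · subst h
      rw [update_self, List.mem_cons] at ha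
      rcases ha with rfl | ha
      · exact hq (Or.inl ⟨v, rfl⟩)
      · exact hS _ _ ha
    · rw [update_of_ne h] at ha; exact hS _ _ ha
  | peek k f q ih => exact ih hq _ _ hS
  | pop k f q ih =>
    refine ih hq _ _ (fun j a ha => ?_)
    by_cases h : j = k
    · subst h
      rw [update_self] at ha
      exact hS _ _ (List.mem_of_mem_tail ha)
    · rw [update_of_ne h] at ha; exact hS _ _ ha
  | load f q ih => exact ih hq _ _ hS
  | branch f q₁ q₂ ih₁ ih₂ =>
    rw [stepAux]
    cases f v
    · exact ih₂ (fun a ha => hq (Or.inr ha)) _ _ hS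
    · exact ih₁ (fun a ha => hq (Or.inl ha)) _ _ hS
  | goto f => exact hS
  | halt => exact hS

theorem loc (q : Stmt Γ Λ σ) (S S' : ∀ k, List (Γ k)) (v : σ) (w : ∀ k, List (Γ k)) (p : K → ℕ)
    (d : ℕ) (hd : depth q ≤ d) (h : ∀ k i, i < p k + d → (S k)[i]? = (S' k)[i]?) :
    ∃ (l : Option Λ) (v' : σ) (w' : ∀ k, List (Γ k)) (p' : K → ℕ),
      (∀ k, (w' k).length ≤ (w k).length + d ∧ p' k ≤ p k + d) ∧
      stepAux q v (fun k => w k ++ (S k).drop (p k)) =
        ⟨l, v', fun k => w' k ++ (S k).drop (p' k)⟩ ∧
      stepAux q v (fun k => w k ++ (S' k).drop (p k)) =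
        ⟨l, v', fun k => w' k ++ (S' k).drop (p' k)⟩ := by
  have hhead : ∀ (w : ∀ k, List (Γ k)) (p : K → ℕ) (k : K), (S k)[p k]? = (S' k)[p k]? →
      (w k ++ (S k).drop (p k)).head? = (w k ++ (S' k).drop (p k)).head? := by
    intro w p k hk
    cases w k with
    | nil => simpa [List.head?_drop] using hk
    | cons a l => rfl
  induction q generalizing v w p d with
  | push k f q ih =>
    simp only [depth] at hd
    obtain ⟨l, v', w', p', h1, h2, h3⟩ := ih v (update w k (f v :: w k)) p (d - 1) (by omega)
      (fun j i hi => h j i (by omega))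
    have e : ∀ T : ∀ k, List (Γ k), update (fun k => w k ++ (T k).drop (p k)) k
        (f v :: (w k ++ (T k).drop (p k))) =
        fun j => update w k (f v :: w k) j ++ (T j).drop (p j) := by
      intro T
      funext j
      by_cases hj : j = k
      · subst hj; simp
      · simp [update_of_ne hj]
    refine ⟨l, v', w', p', fun j => ?_, ?_, ?_⟩
    · have := h1 j
      by_cases hj : j = k
      · subst hj
        rw [update_self, List.length_cons] at this
        omega
      · rw [update_of_ne hj] at this; omega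
    · rw [stepAux, e, h2]
    · rw [stepAux, e, h3]
  | peek k f q ih =>
    simp only [depth] at hd
    obtain ⟨l, v', w', p', h1, h2, h3⟩ := ih (f v (w k ++ (S k).drop (p k)).head?) w p d
      (by omega) h
    refine ⟨l, v', w', p', h1, ?_, ?_⟩
    · rw [stepAux, h2]
    · rw [stepAux, ← hhead w p k (h _ _ (by omega)), h3]
  | pop k f q ih =>
    simp only [depth] at hd
    have e : ∀ T : ∀ k, List (Γ k), update (fun k => w k ++ (T k).drop (p k)) k
        (w k ++ (T k).drop (p k)).tail =
        fun j => update w k (w k).tail j ++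
          (T j).drop (update p k (if w k = [] then p k + 1 else p k) j) := by
      intro T
      funext j
      by_cases hj : j = k
      · subst hj
        simp only [update_self]
        cases w j <;> simp
      · simp [update_of_ne hj]
    have hp : ∀ j, update p k (if w k = [] then p k + 1 else p k) j ≤ p j + 1 := by
      intro j
      by_cases hj : j = k
      · subst hj; rw [update_self]; split_ifs <;> omega
      · rw [update_of_ne hj]; omega
    obtain ⟨l, v', w', p', h1, h2, h3⟩ := ih (f v (w k ++ (S k).drop (p k)).head?)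
      (update w k (w k).tail) (update p k (if w k = [] then p k + 1 else p k)) (d - 1) (by omega)
      (fun j i hi => h j i (by have := hp j; omega))
    refine ⟨l, v', w', p', fun j => ?_, ?_, ?_⟩
    · have := h1 j
      have := hp j
      have : (update w k (w k).tail j).length ≤ (w j).length := by
        by_cases hj : j = k
        · subst hj; simp
        · rw [update_of_ne hj]
      omega
    · rw [stepAux, e, h2]
    · rw [stepAux, e, ← hhead w p k (h _ _ (by omega)), h3]
  | load f q ih =>
    obtain ⟨l, v', w', p', h1, h2, h3⟩ := ih (f v) w p d hd h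
    exact ⟨l, v', w', p', h1, by rw [stepAux, h2], by rw [stepAux, h3]⟩
  | branch f q₁ q₂ ih₁ ih₂ =>
    simp only [depth] at hd
    simp only [stepAux]
    cases f v
    · exact ih₂ v w p d (by omega) h
    · exact ih₁ v w p d (by omega) h
  | goto f => exact ⟨_, _, w, p, fun k => by omega, rfl, rfl⟩
  | halt => exact ⟨_, _, w, p, fun k => by omega, rfl, rfl⟩

/-- One cell of a tableau: control and the `j`-th symbol of every stack. -/
abbrev Cell (Γ : K → Type) (Λ σ : Type) : Type := Option Λ × σ × (∀ k, Option (Γ k))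

/-- The row of cells of a configuration. -/
def row (c : Cfg Γ Λ σ) (j : ℕ) : Cell Γ Λ σ := (c.l, c.var, fun k => (c.stk k)[j]?)

/-- Total step function: halted configurations stay. -/
def step' (M : Λ → Stmt Γ Λ σ) (c : Cfg Γ Λ σ) : Cfg Γ Λ σ := (step M c).getD c

theorem length_step' (M : Λ → Stmt Γ Λ σ) {D : ℕ} (hD : ∀ l, depth (M l) ≤ D) (c : Cfg Γ Λ σ)
    (k : K) : ((step' M c).stk k).length ≤ (c.stk k).length + D := by
  obtain ⟨_ | l, v, S⟩ := c
  · simp [step']
  · obtain ⟨l', v', w', p', h1, h2, -⟩ := loc (M l) S S v (fun _ => []) (fun _ => 0) D (hD l)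
      (fun _ _ _ => rfl)
    simp only [List.nil_append, List.drop_zero] at h2
    have := h1 k
    simp only [step', step, Option.getD_some, h2, List.length_append, List.length_drop,
      List.length_nil] at this ⊢
    omega

theorem good_step' (M : Λ → Stmt Γ Λ σ) (G : Set (Σ k, Γ k)) (hG : ∀ l, syms (M l) ⊆ G)
    (c : Cfg Γ Λ σ) (hc : ∀ k, ∀ a ∈ c.stk k, (⟨k, a⟩ : Σ k, Γ k) ∈ G) :
    ∀ k, ∀ a ∈ (step' M c).stk k, (⟨k, a⟩ : Σ k, Γ k) ∈ G := by
  obtain ⟨_ | l, v, S⟩ := c
  · exact hc
  · exact good_stepAux G _ (hG l) v S hc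

theorem row_step' (M : Λ → Stmt Γ Λ σ) {D : ℕ} (hD : ∀ l, depth (M l) ≤ D) (c c' : Cfg Γ Λ σ)
    (j j' : ℕ) (hj : min j D = min j' D) (h1 : ∀ i < D, row c i = row c' i)
    (h2 : ∀ i, D ≤ i → i ≤ 3 * D → row c (j + i - 2 * D) = row c' (j' + i - 2 * D)) :
    row (step' M c) j = row (step' M c') j' := by
  have h0 := h2 (2 * D) (by omega) (by omega)
  simp only [Nat.add_sub_cancel] at h0
  obtain ⟨l, v, S⟩ := c
  obtain ⟨l', v', S'⟩ := c'
  have h0' := h0
  simp only [row, Prod.mk.injEq] at h0'
  obtain ⟨rfl, rfl, -⟩ := h0'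
  rcases l with _ | l
  · exact h0
  obtain ⟨l', v', w', p', h3, h4, h5⟩ := loc (M l) S S' v (fun _ => []) (fun _ => 0) D (hD l)
    (fun k i hi => congrFun (congrArg (fun z => z.2.2) (h1 i (by omega))) k)
  simp only [List.nil_append, List.drop_zero] at h4 h5
  simp only [step', step, Option.getD_some, h4, h5, row, Prod.mk.injEq, true_and]
  funext k
  have h6 := h3 k
  simp only [List.length_nil, zero_add] at h6
  by_cases h7 : j < (w' k).length
  · have : j' = j := by omega
    subst this
    rw [List.getElem?_append_left h7, List.getElem?_append_left h7]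
  · have h8 : ¬ j' < (w' k).length := by omega
    rw [List.getElem?_append_right (by omega), List.getElem?_append_right (by omega),
      List.getElem?_drop, List.getElem?_drop]
    have h9 := congrFun (congrArg (fun z => z.2.2)
      (h2 (2 * D - (w' k).length + p' k) (by omega) (by omega))) k
    simp only [row] at h9
    convert h9 using 2 <;> omega

omit [DecidableEq K] in
theorem row_min (c : Cfg Γ Λ σ) (q W : ℕ) (h : ∀ k, (c.stk k).length ≤ W) :
    row c (min q W) = row c q := by
  rcases le_total q W with h1 | h1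
  · rw [min_eq_left h1]
  · rw [min_eq_right h1]
    simp only [row, Prod.mk.injEq, true_and]
    funext k
    rw [List.getElem?_eq_none (h k), List.getElem?_eq_none ((h k).trans h1)]

theorem iterate_step'_of_evals (M : Λ → Stmt Γ Λ σ) (c c' : Cfg Γ Λ σ) (n : ℕ)
    (h : (flip bind (step M))^[n] (some c) = some c') (hc' : c'.l = none) (T : ℕ) (hT : n ≤ T) :
    (step' M)^[T] c = c' := by
  have h1 : ∀ (n : ℕ) (c : Cfg Γ Λ σ), (flip bind (step M))^[n] (some c) = some c' →
      (step' M)^[n] c = c' := by
    intro n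
    induction n with
    | zero => intro c h; simpa using h
    | succ n ih =>
      intro c h
      rw [iterate_succ_apply] at h ⊢
      obtain ⟨_ | l, v, S⟩ := c
      · have h2 : ∀ n : ℕ, (flip bind (step M))^[n] (none : Option (Cfg Γ Λ σ)) = none :=
          fun n => iterate_fixed rfl n
        have h3 : flip bind (step M) (some (⟨none, v, S⟩ : Cfg Γ Λ σ)) = none := rfl
        rw [h3, h2] at h
        cases h
      · exact ih _ h
  obtain ⟨m, rfl⟩ := Nat.exists_eq_add_of_le' hT
  rw [iterate_add_apply, h1 n c h]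
  refine iterate_fixed ?_ m
  obtain ⟨l, v, S⟩ := c'
  subst hc'
  rfl

omit [DecidableEq K] in
theorem finite_cells [Finite K] [Finite Λ] [Finite σ] (G : Set (Σ k, Γ k)) (hG : G.Finite) :
    {z : Cell Γ Λ σ | ∀ k a, z.2.2 k = some a → (⟨k, a⟩ : Σ k, Γ k) ∈ G}.Finite := by
  have h1 : ∀ k, {o : Option (Γ k) | ∀ a, o = some a → (⟨k, a⟩ : Σ k, Γ k) ∈ G}.Finite := by
    intro k
    have h2 : (Sigma.mk k ⁻¹' G).Finite := hG.preimage (sigma_mk_injective.injOn)
    refine ((h2.image some).insert none).subset ?_
    rintro (_ | a) ha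
    · exact Or.inl rfl
    · exact Or.inr ⟨a, ha a rfl, rfl⟩
  refine ((Set.finite_univ (α := Option Λ)).prod ((Set.finite_univ (α := σ)).prod
    (Set.Finite.pi' h1))).subset ?_
  intro z hz
  exact ⟨trivial, trivial, hz⟩

end Crest.Agent.CL
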