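import Crest.Agent.CL.Csp
import Crest.Agent.CL.Local

/-!
The Cook–Levin theorem for the bundled stack machines.
-/

set_option autoImplicit false

namespace Crest.Agent.CL

open Crest.Agent.PT Turing Turing.TM2 Function

theorem eval_mono (p : Polynomial ℕ) {a b : ℕ} (h : a ≤ b) : p.eval a ≤ p.eval b := by
  induction p using Polynomial.induction_on' with
  | add p q hp hq => simpa using Nat.add_le_add hp hq
  | monomial n c => simpa using Nat.mul_le_mul_left c (Nat.pow_le_pow_left h n)

theorem exists_witness {X : Type} (inp : Bool ⊕ Bool → X) (x : List Bool) (P W : ℕ)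
    (g : ℕ → Option X)
    (h1 : ∀ j < x.length, g j = some (inp (Sum.inl (x.getD j false))))
    (h2 : ∀ j, x.length ≤ j → j < x.length + P → g j = none ∨ ∃ b, g j = some (inp (Sum.inr b)))
    (h3 : g (x.length + P) = none) (h4 : ∀ j, j + 1 < W → g j = none → g (j + 1) = none) :
    ∃ w : List Bool, w.length ≤ P ∧
      ∀ j < W, g j = ((x.map Sum.inl ++ w.map Sum.inr).map inp)[j]? := by
  classical
  have hex : ∃ l, g (x.length + l) = none := ⟨P, h3⟩
  have hle : Nat.find hex ≤ P := Nat.find_min' hex h3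
  have h5 : ∀ i, ∃ b, i < Nat.find hex → g (x.length + i) = some (inp (Sum.inr b)) := by
    intro i
    by_cases hi : i < Nat.find hex
    · rcases h2 (x.length + i) (by omega) (by omega) with h | ⟨b, h⟩
      · exact (Nat.find_min hex hi h).elim
      · exact ⟨b, fun _ => h⟩
    · exact ⟨false, fun h => (hi h).elim⟩
  choose b hb using h5
  have h6 : ∀ i, x.length + Nat.find hex + i < W → g (x.length + Nat.find hex + i) = none := by
    intro i
    induction i with
    | zero => intro _; exact Nat.find_spec hex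
    | succ i ih => intro hi; exact h4 _ hi (ih (by omega))
  refine ⟨(List.range (Nat.find hex)).map b, by simpa using hle, fun j hj => ?_⟩
  by_cases c1 : j < x.length
  · rw [h1 j c1, List.getElem?_map, List.getElem?_append_left (by simpa using c1)]
    simp [c1]
  · rw [List.getElem?_map, List.getElem?_append_right (by simpa using c1)]
    obtain ⟨i, rfl⟩ := Nat.exists_eq_add_of_le (not_lt.mp c1)
    by_cases c2 : i < Nat.find hex
    · rw [hb i c2]
      simp [List.getElem?_range c2]
    · obtain ⟨i', rfl⟩ := Nat.exists_eq_add_of_le (not_lt.mp c2)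
      rw [← Nat.add_assoc, h6 i' (by omega), List.getElem?_eq_none (by
        simp only [List.length_map, List.length_range]; omega)]
      rfl

section

variable {K : Type} [DecidableEq K] {Γ : K → Type} {Λ σ : Type}

/-- The local transition constraint. -/
def Trans (M : Λ → Stmt Γ Λ σ) (D : ℕ) (t : ℕ) (a : ℕ → Cell Γ Λ σ) : Prop :=
  ∃ (c : Cfg Γ Λ σ) (j : ℕ), min j D = t ∧ (∀ i < D, a i = row c i) ∧
    (∀ i, D ≤ i → i ≤ 3 * D → a i = row c (j + i - 2 * D)) ∧ a (3 * D + 1) = row (step' M c) j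

/-- The constraint on the first row. -/
def Init (k₀ : K) (main : Λ) (init : σ) (inp : Bool ⊕ Bool → Γ k₀) (f : ℕ)
    (z z' : Cell Γ Λ σ) : Prop :=
  f ≠ 0 → z.1 = some main ∧ z.2.1 = init ∧ (∀ k, k ≠ k₀ → z.2.2 k = none) ∧
    (f = 1 → z.2.2 k₀ = some (inp (Sum.inl true))) ∧
    (f = 2 → z.2.2 k₀ = some (inp (Sum.inl false))) ∧
    (f = 3 → z.2.2 k₀ = none ∨ ∃ b, z.2.2 k₀ = some (inp (Sum.inr b))) ∧
    (f = 4 → z.2.2 k₀ = none) ∧ (z.2.2 k₀ = none → z'.2.2 k₀ = none)

/-- Positions of the cells in the scope of a constraint. -/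
def posF (D W J i : ℕ) : ℕ :=
  if i < D then J / W * W + i else
    if i ≤ 3 * D then J / W * W + min (J % W + i - 2 * D) (W - 1) else (J / W + 1) * W + J % W

/-- The kind of a cell of the first row. -/
def iniF (x : Raw) (P t j : ℕ) : ℕ :=
  if t = 0 then (if j < sz x then (bif x.val.getD j false then 1 else 2) else
    if j < sz x + P then 3 else 4) else 0

/-- The flag of the final cell. -/
def finF (T t j : ℕ) : ℕ := if t + 1 = T then (if j = 0 then 1 else 0) else 0

theorem iniF_lt (x : Raw) (P t j : ℕ) : iniF x P t j < 5 := by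
  unfold iniF
  cases x.val.getD j false <;> split_ifs <;> simp

theorem iniF_zero (x : List Bool) (P j : ℕ) : iniF ⟨x⟩ P 0 j =
    if j < x.length then (bif x.getD j false then 1 else 2) else
      if j < x.length + P then 3 else 4 := by
  unfold iniF
  rw [if_pos rfl]
  rfl

theorem finF_lt (T t j : ℕ) : finF T t j < 2 := by
  unfold finF
  split_ifs <;> simp

theorem posF_top {D W t j i : ℕ} (hj : j < W) (h : i < D) :
    posF D W (t * W + j) i = t * W + i := by
  simp only [posF, if_pos h, div_mod_of_lt t j hj]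

theorem posF_mid {D W t j i : ℕ} (hj : j < W) (h : D ≤ i) (h' : i ≤ 3 * D) :
    posF D W (t * W + j) i = t * W + min (j + i - 2 * D) (W - 1) := by
  simp only [posF, if_neg (not_lt.2 h), if_pos h', div_mod_of_lt t j hj]

theorem posF_last {D W t j : ℕ} (hj : j < W) :
    posF D W (t * W + j) (3 * D + 1) = (t + 1) * W + j := by
  simp only [posF, if_neg (show ¬ 3 * D + 1 < D by omega),
    if_neg (show ¬ 3 * D + 1 ≤ 3 * D by omega), div_mod_of_lt t j hj]

theorem ty_decode (a f g : ℕ) (hf : f < 5) (hg : g < 2) :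
    (a * 10 + f * 2 + g) / 10 = a ∧ (a * 10 + f * 2 + g) % 10 / 2 = f ∧
      (a * 10 + f * 2 + g) % 2 = g := by omega

theorem cnf_of_machine [Finite K] [Finite Λ] [Finite σ] (M : Λ → Stmt Γ Λ σ) (k₀ k₁ : K)
    (main : Λ) (init : σ) (inp : Bool ⊕ Bool → Γ k₀) (out : Bool → Γ k₁) (hout : Injective out)
    (c0 : List (Γ k₀) → Cfg Γ Λ σ) (hc1 : ∀ s, (c0 s).l = some main)
    (hc2 : ∀ s, (c0 s).var = init) (hc3 : ∀ s, (c0 s).stk k₀ = s)
    (hc4 : ∀ s k, k ≠ k₀ → (c0 s).stk k = []) (V : List Bool × List Bool → Bool)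
    (p time : Polynomial ℕ)
    (hV : ∀ (x w : List Bool) (T : ℕ), time.eval (x.length + w.length) ≤ T →
      ((step' M)^[T] (c0 ((x.map Sum.inl ++ w.map Sum.inr).map inp))).stk k₁ = [out (V (x, w))])
    (A : Set (List Bool))
    (hA : ∀ x, x ∈ A ↔ ∃ w : List Bool, w.length ≤ p.eval x.length ∧ V (x, w) = true) :
    CNFStmt A := by
  classical
  obtain ⟨D, hD, hD0⟩ : ∃ D, (∀ l, depth (M l) ≤ D) ∧ 0 < D := by
    obtain ⟨D, hD⟩ := (Set.finite_range (fun l => depth (M l))).bddAbove
    exact ⟨D + 1, fun l => (hD ⟨l, rfl⟩).trans (Nat.le_succ _), Nat.succ_pos _⟩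
  let G : Set (Σ k, Γ k) := (⋃ l, syms (M l)) ∪ Set.range (fun b => ⟨k₀, inp b⟩)
  have hG : G.Finite := (Set.finite_iUnion (fun l => syms_finite _)).union (Set.finite_range _)
  let P : Raw → ℕ := fun x => p.eval (sz x)
  let T : Raw → ℕ := fun x => time.eval (sz x + P x) + 1
  let W : Raw → ℕ := fun x => sz x + P x + D * T x + D + 1
  have hP : PT P := pt_poly p (PT.len PT.id')
  have hT : PT T := (pt_poly time ((PT.len PT.id').add hP)).add (PT.const 1)
  have hW : PT W := by fun_prop
  have hW0 : ∀ x, 0 < W x := fun x => Nat.succ_pos _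
  have hcfg : ∀ (x : Raw) (w : List Bool), w.length ≤ P x → ∀ t ≤ T x, ∀ k,
      (((step' M)^[t] (c0 ((x.val.map Sum.inl ++ w.map Sum.inr).map inp))).stk k).length ≤
        W x - 1 := by
    intro x w hw
    have : ∀ t k, (((step' M)^[t] (c0 ((x.val.map Sum.inl ++ w.map Sum.inr).map inp))).stk
        k).length ≤ sz x + P x + D * t := by
      intro t
      induction t with
      | zero =>
        intro k
        by_cases hk : k = k₀
        · subst hk; simp [hc3]; omega
        · simp [hc4 _ _ hk]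
      | succ t ih =>
        intro k
        rw [iterate_succ_apply']
        have := length_step' M hD
          ((step' M)^[t] (c0 ((x.val.map Sum.inl ++ w.map Sum.inr).map inp))) k
        have := ih k
        rw [Nat.mul_succ]
        omega
    intro t ht k
    have h1 := this t k
    have h2 : D * t ≤ D * T x := Nat.mul_le_mul_left _ ht
    simp only [W]
    omega
  have hDW : ∀ x, D < W x := fun x => by simp only [W]; omega
  refine cnf_of_csp' {z : Cell Γ Λ σ | ∀ k a, z.2.2 k = some a → (⟨k, a⟩ : Σ k, Γ k) ∈ G}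
    (finite_cells G hG) ⟨(none, init, fun _ => none), fun k a h => by cases h⟩ A (3 * D + 1)
    ((D + 1) * 10) (fun x => (T x + 1) * W x) (fun x => T x * W x)
    (fun x J i => posF D (W x) J i)
    (fun x J => min (J % W x) D * 10 + iniF x (P x) (J / W x) (J % W x) * 2 +
      finF (T x) (J / W x) (J % W x))
    (fun c a => Trans M D (c / 10) a ∧ Init k₀ main init inp (c % 10 / 2) (a (2 * D))
      (a (2 * D + 1)) ∧ (c % 2 = 1 → (a (3 * D + 1)).2.2 k₁ = some (out true)))
    (by fun_prop) (by fun_prop) ?_ ?_ ?_ ?_ ?_ ?_ ?_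
  · unfold posF; fun_prop
  · have h1 : PT (fun q : Raw × ℕ => q.1.val.getD (q.2 % W q.1) false) :=
      pt_getD (by fun_prop) (by fun_prop)
    unfold iniF finF
    fun_prop
  · intro x J
    have := iniF_lt x (P x) (J / W x) (J % W x)
    have := finF_lt (T x) (J / W x) (J % W x)
    omega
  · intro x J i hi
    simp only [posF, if_neg (show ¬ i < D by omega), if_neg (show ¬ i ≤ 3 * D by omega),
      if_neg (show ¬ 3 * D + 1 < D by omega), if_neg (show ¬ 3 * D + 1 ≤ 3 * D by omega)]
  · intro x J i hJ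
    have h1 : J / W x < T x := by rwa [Nat.div_lt_iff_lt_mul (hW0 x)]
    have h2 := hDW x
    unfold posF
    split_ifs
    · exact mul_add_lt (by omega) (by omega)
    · exact mul_add_lt (by omega) (by omega)
    · exact mul_add_lt (by omega) (Nat.mod_lt _ (hW0 x))
  · intro x hx
    obtain ⟨w, hw, hVw⟩ := (hA x).1 hx
    let cfg : ℕ → Cfg Γ Λ σ := fun t =>
      (step' M)^[t] (c0 ((x.map Sum.inl ++ w.map Sum.inr).map inp))
    have hgood : ∀ t k, ∀ a ∈ (cfg t).stk k, (⟨k, a⟩ : Σ k, Γ k) ∈ G := by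
      intro t
      induction t with
      | zero =>
        intro k a ha
        by_cases hk : k = k₀
        · subst hk
          simp only [cfg, iterate_zero, id, hc3] at ha
          obtain ⟨b, -, rfl⟩ := List.mem_map.1 ha
          exact Or.inr ⟨b, rfl⟩
        · simp [cfg, hc4 _ _ hk] at ha
      | succ t ih =>
        simp only [cfg, iterate_succ_apply']
        exact good_step' M G (fun l a ha => Or.inl (Set.mem_iUnion.2 ⟨l, ha⟩)) _ ih
    refine ⟨fun q => row (cfg (q / W ⟨x⟩)) (q % W ⟨x⟩),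
      fun q k a ha => hgood _ k a (List.mem_of_getElem? ha), fun J hJ => ?_⟩
    have h1 : J / W ⟨x⟩ < T ⟨x⟩ := by rwa [Nat.div_lt_iff_lt_mul (hW0 _)]
    have h2 := hDW ⟨x⟩
    have h3 := Nat.mod_lt J (hW0 ⟨x⟩)
    have hJ' : J = J / W ⟨x⟩ * W ⟨x⟩ + J % W ⟨x⟩ := (Nat.div_add_mod' _ _).symm
    simp only [ty_decode _ _ _ (iniF_lt _ _ _ _) (finF_lt _ _ _)]
    generalize J / W ⟨x⟩ = t at h1 hJ' ⊢
    generalize J % W ⟨x⟩ = j at h3 hJ' ⊢
    subst hJ'
    have ha2 : ∀ i, D ≤ i → i ≤ 3 * D →
        row (cfg (posF D (W ⟨x⟩) (t * W ⟨x⟩ + j) i / W ⟨x⟩))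
          (posF D (W ⟨x⟩) (t * W ⟨x⟩ + j) i % W ⟨x⟩) = row (cfg t) (j + i - 2 * D) := by
      intro i hi hi'
      rw [posF_mid h3 hi hi', (div_mod_of_lt _ _ (by omega)).1, (div_mod_of_lt _ _ (by omega)).2]
      exact row_min _ _ _ (hcfg ⟨x⟩ w hw t h1.le)
    have ha3 : row (cfg (posF D (W ⟨x⟩) (t * W ⟨x⟩ + j) (3 * D + 1) / W ⟨x⟩))
          (posF D (W ⟨x⟩) (t * W ⟨x⟩ + j) (3 * D + 1) % W ⟨x⟩) = row (cfg (t + 1)) j := by
      rw [posF_last h3, (div_mod_of_lt _ _ h3).1, (div_mod_of_lt _ _ h3).2]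
    refine ⟨⟨cfg t, j, rfl, fun i hi => ?_, ha2, ?_⟩, ?_, fun hf => ?_⟩
    · simp only
      rw [posF_top h3 hi, (div_mod_of_lt _ _ (by omega)).1, (div_mod_of_lt _ _ (by omega)).2]
    · simp only
      rw [ha3]
      simp only [cfg, iterate_succ_apply']
    · rw [ha2 _ (by omega) (by omega), ha2 _ (by omega) (by omega), Nat.add_sub_cancel,
        show j + (2 * D + 1) - 2 * D = j + 1 by omega]
      intro hf
      have ht : t = 0 := by
        by_contra ht
        simp [iniF, ht] at hf
      subst ht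
      have hw' : w.length ≤ P ⟨x⟩ := hw
      rw [iniF_zero]
      simp only [row, cfg, iterate_zero, id, hc1, hc2, hc3, true_and]
      refine ⟨fun k hk => by simp [hc4 _ _ hk], ?_⟩
      have hmono : ((x.map Sum.inl ++ w.map Sum.inr).map inp)[j]? = none →
          ((x.map Sum.inl ++ w.map Sum.inr).map inp)[j + 1]? = none := by
        rw [List.getElem?_eq_none_iff, List.getElem?_eq_none_iff]
        omega
      by_cases c1 : j < x.length
      · have e : ((x.map Sum.inl ++ w.map Sum.inr).map inp)[j]? =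
            some (inp (Sum.inl (x.getD j false))) := by
          rw [List.getElem?_map, List.getElem?_append_left (by simpa using c1)]
          simp [c1]
        refine ⟨?_, ?_, ?_, ?_, hmono⟩ <;> rw [if_pos c1, e] <;>
          cases x.getD j false <;> simp
      · rw [if_neg c1]
        refine ⟨?_, ?_, fun _ => ?_, fun h => ?_, hmono⟩
        · split_ifs <;> simp
        · split_ifs <;> simp
        · rw [List.getElem?_map, List.getElem?_append_right (by simpa using c1),
            List.getElem?_map]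
          cases w[j - (x.map (Sum.inl : Bool → Bool ⊕ Bool)).length]? with
          | none => exact Or.inl rfl
          | some b => exact Or.inr ⟨b, rfl⟩
        · have c2 : ¬ j < x.length + P ⟨x⟩ := fun c2 => by simp [c2] at h
          rw [List.getElem?_eq_none_iff]
          simp only [List.length_map, List.length_append]
          omega
    · rw [ha3]
      have ht : t + 1 = T ⟨x⟩ ∧ j = 0 := by
        unfold finF at hf
        split_ifs at hf with c1 c2
        exact ⟨c1, c2⟩
      obtain ⟨ht, rfl⟩ := ht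
      have hw' : w.length ≤ P ⟨x⟩ := hw
      have := hV x w (t + 1) (by
        rw [ht]
        exact (eval_mono time (Nat.add_le_add_left hw' _)).trans (Nat.le_succ _))
      simp only [row, cfg, this, hVw]
      rfl
  · intro x τ hτ
    have h2 := hDW ⟨x⟩
    have hτ' : ∀ t < T ⟨x⟩, ∀ j < W ⟨x⟩,
        Trans M D (min j D) (fun i => τ (posF D (W ⟨x⟩) (t * W ⟨x⟩ + j) i)) ∧
        Init k₀ main init inp (iniF ⟨x⟩ (P ⟨x⟩) t j) (τ (t * W ⟨x⟩ + j))
          (τ (t * W ⟨x⟩ + min (j + 1) (W ⟨x⟩ - 1))) ∧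
        (finF (T ⟨x⟩) t j = 1 → (τ ((t + 1) * W ⟨x⟩ + j)).2.2 k₁ = some (out true)) := by
      intro t ht j hj
      have := hτ _ (mul_add_lt ht hj)
      simp only [ty_decode _ _ _ (iniF_lt _ _ _ _) (finF_lt _ _ _), div_mod_of_lt _ _ hj,
        posF_last hj] at this
      rw [posF_mid hj (by omega) (by omega), posF_mid hj (by omega) (by omega),
        Nat.add_sub_cancel, show j + (2 * D + 1) - 2 * D = j + 1 by omega,
        min_eq_left (show j ≤ W ⟨x⟩ - 1 by omega)] at this
      exact this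
    have hT0 : 0 < T ⟨x⟩ := Nat.succ_pos _
    have hini : ∀ j < W ⟨x⟩, Init k₀ main init inp (iniF ⟨x⟩ (P ⟨x⟩) 0 j) (τ j)
        (τ (min (j + 1) (W ⟨x⟩ - 1))) := by
      intro j hj
      simpa using (hτ' 0 hT0 j hj).2.1
    have hne : ∀ j, iniF ⟨x⟩ (P ⟨x⟩) 0 j ≠ 0 := by
      intro j
      unfold iniF
      cases x.getD j false <;> split_ifs <;> simp_all
    have hPW : x.length + P ⟨x⟩ < W ⟨x⟩ := by simp only [W, sz_raw]; omega
    obtain ⟨w, hw, hgw⟩ := exists_witness inp x (P ⟨x⟩) (W ⟨x⟩) (fun j => (τ j).2.2 k₀)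
      (fun j hj => by
        obtain ⟨-, -, -, e1, e2, -⟩ := hini j (by omega) (hne j)
        rw [iniF_zero, if_pos hj] at e1 e2
        cases hb : x.getD j false
        · exact e2 (by rw [hb]; rfl)
        · exact e1 (by rw [hb]; rfl))
      (fun j hj hj' => by
        obtain ⟨-, -, -, -, -, e, -⟩ := hini j (by omega) (hne j)
        exact e (by rw [iniF_zero, if_neg (not_lt.2 hj), if_pos hj']))
      (by
        obtain ⟨-, -, -, -, -, -, e, -⟩ := hini _ hPW (hne _)
        exact e (by simp [iniF]))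
      (fun j hj => by
        obtain ⟨-, -, -, -, -, -, -, e⟩ := hini j (by omega) (hne j)
        rwa [min_eq_left (by omega)] at e)
    let cfg : ℕ → Cfg Γ Λ σ := fun t =>
      (step' M)^[t] (c0 ((x.map Sum.inl ++ w.map Sum.inr).map inp))
    have hrow : ∀ t ≤ T ⟨x⟩, ∀ j < W ⟨x⟩, τ (t * W ⟨x⟩ + j) = row (cfg t) j := by
      intro t
      induction t with
      | zero =>
        intro _ j hj
        obtain ⟨e1, e2, e3, -⟩ := hini j hj (hne j)
        simp only [Nat.zero_mul, Nat.zero_add, row, cfg, iterate_zero, id, hc1, hc2]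
        refine Prod.ext e1 (Prod.ext e2 (funext fun k => ?_))
        by_cases hk : k = k₀
        · subst hk
          simp only [hc3]
          exact hgw j hj
        · simp [hc4 _ _ hk, e3 k hk]
      | succ t ih =>
        intro ht j hj
        obtain ⟨c', j', e1, e2, e3, e4⟩ := (hτ' t (by omega) j hj).1
        simp only [posF_last hj] at e4
        rw [e4]
        simp only [cfg, iterate_succ_apply']
        refine row_step' M hD _ _ _ _ e1 (fun i hi => ?_) (fun i hi hi' => ?_)
        · rw [← e2 i hi]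
          simp only [posF_top hj hi]
          exact ih (by omega) i (by omega)
        · rw [← e3 i hi hi']
          simp only [posF_mid hj hi hi']
          rw [ih (by omega) _ (by omega)]
          exact row_min _ _ _ (hcfg ⟨x⟩ w hw t (by omega))
    refine (hA x).2 ⟨w, hw, ?_⟩
    have hfin := (hτ' (T ⟨x⟩ - 1) (by omega) 0 (hW0 _)).2.2
      (by simp [finF, Nat.sub_add_cancel hT0])
    rw [Nat.sub_add_cancel hT0, hrow _ le_rfl 0 (hW0 _)] at hfin
    have := hV x w (T ⟨x⟩) ((eval_mono time (Nat.add_le_add_left hw _)).trans (Nat.le_succ _))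
    simp only [row, cfg, this] at hfin
    exact hout (Option.some.inj hfin)

end

theorem cnf_of_inNP (A : Set (List Bool)) (hA : Crest.Complexity.InNP A) : CNFStmt A := by
  obtain ⟨V, p, ⟨h⟩, hA⟩ := hA
  have := h.tm.kFin
  have := h.tm.ΛFin
  have := h.tm.σFin
  refine cnf_of_machine h.tm.m h.tm.k₀ h.tm.k₁ h.tm.main h.tm.initialState h.inputAlphabet.symm
    h.outputAlphabet.symm h.outputAlphabet.symm.injective (initList h.tm) (fun _ => rfl)
    (fun _ => rfl) (fun s => by simp [initList]) (fun s k hk => by simp [initList, hk]) V p h.time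
    (fun x w T hT => ?_) A hA
  have h1 := h.outputsFun (x, w)
  have h2 := iterate_step'_of_evals h.tm.m _ _ _ h1.evals_in_steps rfl T
    (h1.steps_le_m.trans (by
      simpa [Crest.Complexity.pairEnc, Computability.encodingProd, Computability.encodingList]
        using hT))
  exact (congrArg (fun c => c.stk h.tm.k₁) h2).trans (by simp [haltList]; rfl)

/-- **Cook–Levin.** -/
theorem cookLevin (A : Set (List Bool)) (hA : Crest.Complexity.InNP A) :
    ∃ (k : ℕ) (n m : Raw → ℕ) (var : Raw → ℕ → ℕ → ℕ) (sgn : Raw → ℕ → ℕ → Bool), 0 < k ∧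
      PT n ∧ PT m ∧ PT (fun p : Raw × ℕ × ℕ => var p.1 p.2.1 p.2.2) ∧
      PT (fun p : Raw × ℕ × ℕ => sgn p.1 p.2.1 p.2.2) ∧ (∀ x j s, var x j s < n x) ∧
      ∀ x : List Bool, x ∈ A ↔
        ∃ σ : ℕ → Bool, ∀ j < m ⟨x⟩, ∃ s < k, σ (var ⟨x⟩ j s) = sgn ⟨x⟩ j s :=
  cnf_of_inNP A hA

end Crest.Agent.CL
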